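import Vale.Agent.P151.Defs
import Vale.Agent.P151.Bridge

namespace Vale.Agent.Results.P151.Zd
open Vale.Agent.P151

/-- No percolation at criticality on the nearest-neighbour lattice `ℤ^d`, for every `d ≥ 2`. -/
theorem result (d : ℕ) (hd : 2 ≤ d) :
    pc (lattice d) < 1 ∧ perc (lattice d) (pc (lattice d)) (InfCluster (Fin d → ℤ)) = 0 :=
  main hd

end Vale.Agent.Results.P151.Zd
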